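import Vale.Agent.P216.H808.Z10Props
import Vale.Agent.P216.H971.LowTr
import Vale.Agent.P216.B7774.Z9

/-!
# P216-B7, Z10, row E of H808: transport to the fibre over `a`
-/

set_option linter.all false

open Set BoundedContinuousFunction

namespace Vale.Agent.P216.H774E8

open Vale.Agent.P216.Sl Vale.Agent.P216.PS Vale.Agent.P216.B7 Vale.Agent.P216.H808
open Vale.Agent.P216.H456 (PF PFD lcut mem_PF_iff P_subset_PF PF_mono)
open Vale.Agent.P216.H456C (lcut_memB lcut_applyB)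
open Vale.Agent.P216.H971.Low (ExC Tp Tp_eq isMap_Tp qT qT_mem exC_of_Hm sT tr_sT)
open Vale.Agent.P216.AS (IsMap IsHtpy)
open Vale.Agent.P216.H901 (tr)
open Vale.Agent.P216.B7774 (ex_sub ex_int ex_ang)

variable {M : Type} [MetricSpace M] [CompactSpace M]

/-! ### The circle -/

theorem ex_eq_iff {r s : ℝ} (h : ex r = ex s) : ∃ m : ℤ, r = s + m := by
  rw [ex, ex, Circle.exp_eq_exp] at h
  obtain ⟨m, hm⟩ := h
  refine ⟨m, ?_⟩
  have hp := Real.pi_pos
  have : (2 * Real.pi) * r = (2 * Real.pi) * (s + m) := by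
    rw [hm]
    ring
  exact mul_left_cancel₀ (by positivity) this

theorem ex_eq_close {r s : ℝ} (h : ex r = ex s) (hd : |r - s| < 1) : r = s := by
  obtain ⟨m, hm⟩ := ex_eq_iff h
  have h1 : |(m : ℝ)| < 1 := by
    rw [hm] at hd
    simpa using hd
  have h2 : m = 0 := by
    have : |m| < 1 := by exact_mod_cast h1
    exact Int.abs_lt_one_iff.1 this
  rw [hm, h2]
  simp

theorem one_le_dist_quarter (r s : ℝ) (h : |r - s| = 1 / 4) : 1 ≤ dist (ex r) (ex s) := by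
  have e : dist (ex r) (ex s) = ‖((ex (r - s) : Circle) : ℂ) - 1‖ := by
    have h0 : dist (ex r) (ex s) = dist ((ex r : Circle) : ℂ) ((ex s : Circle) : ℂ) := rfl
    rw [h0, Complex.dist_eq, ex_sub, Circle.coe_div]
    have hw : ((ex s : Circle) : ℂ) ≠ 0 := Circle.coe_ne_zero _
    have : ((ex r : Circle) : ℂ) / (ex s : Circle) - 1 =
        (((ex r : Circle) : ℂ) - (ex s : Circle)) / (ex s : Circle) := by field_simp
    rw [this, norm_div, Circle.norm_coe, div_one]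
  rw [e]
  have hre : (((ex (r - s) : Circle) : ℂ) - 1).re = -1 := by
    rw [ex, Circle.coe_exp, Complex.sub_re, Complex.exp_ofReal_mul_I_re, Complex.one_re]
    have : Real.cos (2 * Real.pi * (r - s)) = 0 := by
      rcases eq_or_eq_neg_of_abs_eq h with h | h
      · rw [h, show 2 * Real.pi * (1 / 4) = Real.pi / 2 by ring, Real.cos_pi_div_two]
      · rw [h, show 2 * Real.pi * -(1 / 4) = -(Real.pi / 2) by ring, Real.cos_neg,
          Real.cos_pi_div_two]
    rw [this]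
    ring
  calc (1 : ℝ) = |(((ex (r - s) : Circle) : ℂ) - 1).re| := by rw [hre]; norm_num
    _ ≤ _ := Complex.abs_re_le_norm _

/-- The height of a curve with small image in the circle moves little. -/
theorem height_close {f : ℝ → ℝ} (hf : Continuous f)
    (hd : ∀ u u', dist (ex (f u)) (ex (f u')) < 1) (u u' : ℝ) : |f u - f u'| < 1 / 4 := by
  by_contra hcon
  have hcon := not_lt.1 hcon
  have hc : Continuous fun x => |f x - f u'| := (hf.sub continuous_const).abs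
  have h0 : |f u' - f u'| = 0 := by simp
  obtain ⟨x, hx⟩ : ∃ x, |f x - f u'| = 1 / 4 := by
    have := mem_range_of_exists_le_of_exists_ge hc (c := 1 / 4) ⟨u', by rw [h0]; norm_num⟩
      ⟨u, hcon⟩
    exact this
  exact absurd (hd x u') (not_lt.2 (one_le_dist_quarter _ _ hx))

/-! ### Labels -/

section labels

variable {h : C(M, Circle)} {b v a p : M × ℝ} {t t' D s s' R ρ r₀ : ℝ} {w w' c q : ℝ →ᵇ M}

theorem Fb_sub_P (hw : w ∈ Fb h b v t) : w ∈ P v.1 b.1 t := by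
  have h1 : w 0 = v.1 := by
    have := hw.2
    rw [lab] at this
    exact congrArg Prod.fst this
  have := mem_PF_iff.1 hw.1
  rwa [h1] at this

theorem Fb_mono (ht : t ≤ t') : Fb h b v t ⊆ Fb h b v t' := fun _ hw => ⟨PF_mono ht hw.1, hw.2⟩

theorem lab_mem (hA : AGoal) (hb : b ∈ Xt h) (ht : 0 ≤ t) (hw : w ∈ PF b.1 t) :
    lab h b w ∈ Xt h := by
  obtain ⟨h1, h2, -, -⟩ := hA M h b hb t ht
  obtain ⟨f, hf⟩ := h1 w hw
  rw [h2 w hw f hf]
  exact hf.2.1 0

theorem cat_Fb (hA' : ACatGoal) (hb : b ∈ Xt h) (hv : v ∈ Xt h) (hD : 0 ≤ D) (ht : 0 ≤ t)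
    (hc : c ∈ Fb h v a D) (hw : w ∈ Fb h b v t) : cat D c w ∈ Fb h b a (D + t) := by
  obtain ⟨h1, h2⟩ := hA' M h b hb v hv D t hD ht c hc.1 w hw
  exact ⟨h1, h2.trans hc.2⟩

/-- The short path from `v` to `p` in the covering. -/
theorem qT_Fb (hA : AGoal) (hU : LS.UniqSeg M ρ) (hR : 0 < R) (hRρ : R < ρ) (hR4 : R ≤ 1 / 4)
    (hmod : ∀ x y : M, dist x y ≤ R → dist (h x) (h y) < 1) (hp : p ∈ Xt h) (hv : v ∈ Xt h)
    (hd : dist p v ≤ R) : qT R v.1 p.1 ∈ Fb h p v R := by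
  have hd1 : dist p.1 v.1 ≤ R := (le_max_left _ _).trans ((Prod.dist_eq (x := p) (y := v)).symm.le.trans hd)
  have hd2 : dist p.2 v.2 ≤ R := (le_max_right _ _).trans ((Prod.dist_eq (x := p) (y := v)).symm.le.trans hd)
  have hq := qT_mem hU hR hRρ hd1
  have hqF : qT R v.1 p.1 ∈ PF p.1 R := P_subset_PF hq
  obtain ⟨h1, h2, -, -⟩ := hA M h p hp R hR.le
  obtain ⟨f, hf⟩ := h1 _ hqF
  refine ⟨hqF, ?_⟩
  rw [h2 _ hqF f hf]
  obtain ⟨hfc, hfe, T, hT⟩ := hf
  have h0 : qT R v.1 p.1 0 = v.1 := eq_left hq le_rfl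
  have hT' := tr_sT hU hR hRρ v.1
  have hval : ∀ u, qT R v.1 p.1 u = sT R v.1 p.1 (R - u) := fun u =>
    (hT'.liprev (show p.1 ∈ Metric.closedBall v.1 R from hd1)).mo_apply u
  have hsmall : ∀ u u', dist (qT R v.1 p.1 u) (qT R v.1 p.1 u') ≤ R := by
    intro u u'
    rw [hval, hval]
    unfold sT
    rw [LS.dist_seg_seg hU (hd1.trans_lt hRρ) (H971.Low.clamp_mem _) (H971.Low.clamp_mem _)]
    have h3 := H971.Low.clamp_mem ((R - u) / R)
    have h4 := H971.Low.clamp_mem ((R - u') / R)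
    have h5 : |max 0 (min 1 ((R - u) / R)) - max 0 (min 1 ((R - u') / R))| ≤ 1 := by
      rw [abs_le]
      constructor <;> linarith [h3.1, h3.2, h4.1, h4.2]
    calc _ ≤ 1 * dist p.1 v.1 := mul_le_mul_of_nonneg_right h5 dist_nonneg
      _ ≤ R := by rw [one_mul]; exact hd1
  have hclose := height_close hfc (fun u u' => by
    rw [← hfe, ← hfe]
    exact hmod _ _ (hsmall u u')) 0 T
  have e : ex (f 0) = ex v.2 := by
    rw [← hfe, h0]
    exact hv
  have hfT : f T = p.2 := hT T le_rfl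
  have : f 0 = v.2 := by
    refine ex_eq_close e ?_
    have h6 : |f 0 - v.2| ≤ |f 0 - f T| + |p.2 - v.2| := by
      rw [hfT]
      exact abs_sub_le _ _ _
    rw [Real.dist_eq] at hd2
    linarith
  rw [h0, this]

/-- A cut path is a concatenation. -/
theorem lcut_eq (hU : LS.UniqSeg M ρ) (hR : 0 < R) (hRρ : R < ρ) {v x : M} (ht : 0 ≤ t)
    (hw : w ∈ PF x t) (hd : dist (w 0) v ≤ R) :
    lcut (sT R v) R w = cat R (qT R v (w 0)) w := by
  have hT := tr_sT hU hR hRρ v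
  have hx : w 0 ∈ Metric.closedBall v R := hd
  have hq := qT_mem hU hR hRρ hd
  have hw' : w ∈ PFD x (Metric.closedBall v R) t := ⟨hw, hx⟩
  have e1 : qT R v (w 0) R = w 0 := eq_right hq le_rfl
  have e4 : w 0 = sT R v (w 0) 0 := (hT.left _ hx 0 le_rfl).symm
  ext u
  rw [lcut_applyB hT hw', cat_apply hq.1 hw.1 e1]
  rcases le_total u R with h2 | h2
  · rw [catf_left h2, H456.lj_left h2]
    show _ = (mo fun u => sT R v (w 0) (R - u)) u
    rw [(hT.liprev hx).mo_apply]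
  · rw [catf_right e1 h2, H456.lj_right e4 h2]

end labels

/-! ### Homotopies inside the fibres -/

section slide

variable {h : C(M, Circle)} {a b v : M × ℝ} {k : Type} [Field k] {t s s' s₀ s₁ C ε : ℝ} {d : ℕ}
  {eta : List (ℝ →ᵇ M) → k} {w w' : ℝ →ᵇ M}

theorem Hm_leftZ (hA' : ACatGoal) (hb : b ∈ Xt h) (hv : v ∈ Xt h) (ht : 0 ≤ t) (hs : 0 ≤ s)
    (hε : 0 < ε)
    (heta : ∀ l, l.length = d + 2 → SmL (Fb h b a (s + t)) ε l → dl eta l = 0)
    (hj : JoinedIn (Fb h v a s) w w') :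
    Hm eta (Fb h b v t) ε d (fun y => cat s w y) (fun y => cat s w' y) := by
  obtain ⟨γ, hγ⟩ := hj
  refine Hm.of_preconnected (S := range γ) (G := fun v y => cat s v y) (X' := Fb h b a (s + t))
    (ε := ε) (isPreconnected_range γ.continuous) hε ?_ ?_ heta
    ⟨0, by rw [γ.source]⟩ ⟨1, by rw [γ.target]⟩
  · rintro _ ⟨θ, rfl⟩ y hy
    exact cat_Fb hA' hb hv hs ht (hγ θ) hy
  · rintro _ ⟨θ, rfl⟩ _ ⟨θ', rfl⟩ y hy y' hy' h1 h2
    have g1 := Fb_sub_P (hγ θ)
    have g2 := Fb_sub_P (hγ θ')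
    have g3 := Fb_sub_P hy
    have g4 := Fb_sub_P hy'
    refine (dist_cat_cat_le g1.1 g2.1 g3.1 g4.1 ?_ ?_).trans_lt (max_lt h1 h2)
    · rw [eq_right g1 le_rfl, eq_left g3 le_rfl]
    · rw [eq_right g2 le_rfl, eq_left g4 le_rfl]

theorem Hm_timeZ (hA' : ACatGoal) (hb : b ∈ Xt h) (hv : v ∈ Xt h) (ht : 0 ≤ t) (hs : 0 ≤ s)
    (hss : s ≤ s') (hε : 0 < ε)
    (heta : ∀ l, l.length = d + 2 → SmL (Fb h b a (s' + t)) ε l → dl eta l = 0)
    (hw : w ∈ Fb h v a s) :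
    Hm eta (Fb h b v t) (ε / 2) d (fun y => cat s w y) (fun y => cat s' w y) := by
  refine Hm.of_preconnected (S := Icc s s') (G := fun θ y => cat θ w y)
    (X' := Fb h b a (s' + t)) (ε := ε) isPreconnected_Icc (by positivity) ?_ ?_ heta
    ⟨le_rfl, hss⟩ ⟨hss, le_rfl⟩
  · intro θ hθ y hy
    exact Fb_mono (by linarith [hθ.2])
      (cat_Fb hA' hb hv (hs.trans hθ.1) ht (Fb_mono hθ.1 hw) hy)
  · intro θ hθ θ' hθ' y hy y' hy' h1 h2
    have gw := Fb_sub_P hw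
    have gy := Fb_sub_P hy
    have gy' := Fb_sub_P hy'
    have key : ∀ θ ∈ Icc s s', ∀ θ' ∈ Icc s s', θ ≤ θ' → dist (cat θ w y) (cat θ' w y) ≤ |θ - θ'| :=
      fun θ hθ θ' _ hle => by
        rw [abs_sub_comm, abs_of_nonneg (sub_nonneg.2 hle)]
        exact dist_cat_time_le hle (P_mono hθ.1 gw) gy
    have h3 : dist (cat θ w y) (cat θ' w y) ≤ |θ - θ'| := by
      rcases le_total θ θ' with hle | hle
      · exact key θ hθ θ' hθ' hle
      · rw [dist_comm, abs_sub_comm]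
        exact key θ' hθ' θ hθ hle
    have hw' := P_mono hθ'.1 gw
    have h4 : dist (cat θ' w y) (cat θ' w y') ≤ dist y y' := by
      refine (dist_cat_cat_le hw'.1 hw'.1 gy.1 gy'.1 ?_ ?_).trans ?_
      · rw [eq_right hw' le_rfl, eq_left gy le_rfl]
      · rw [eq_right hw' le_rfl, eq_left gy' le_rfl]
      · rw [dist_self]
        exact max_le dist_nonneg le_rfl
    rw [Real.dist_eq] at h1
    linarith [dist_triangle (cat θ w y) (cat θ' w y) (cat θ' w y')]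

theorem Hm_slideZ (hA' : ACatGoal) (hb : b ∈ Xt h) (hv : v ∈ Xt h) (hC : 0 ≤ C) (hε : 0 < ε)
    (hs : 0 ≤ s) (hs' : 0 ≤ s') (h1 : s ≤ s₁) (h1' : s' ≤ s₁) (hw : w ∈ Fb h v a s)
    (hw' : w' ∈ Fb h v a s') (hj : JoinedIn (Fb h v a s₁) w w')
    (heta : ∀ l, l.length = d + 2 → SmL (Fb h b a (s₁ + C)) ε l → dl eta l = 0) :
    Hm eta (Fb h b v C) (ε / 2) d (fun y => cat s w y) (fun y => cat s' w' y) := by
  have e1 := Hm_timeZ hA' hb hv hC hs h1 hε heta hw
  have e2 := Hm_leftZ hA' hb hv hC (hs.trans h1) hε heta hj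
  have e3 := Hm_timeZ hA' hb hv hC hs' h1' hε heta hw'
  exact (e1.trans (e2.mono le_rfl (by linarith))).trans e3.symm

end slide

/-- A modulus of continuity for `h`. -/
theorem exists_mod (h : C(M, Circle)) : ∃ δ > 0, ∀ x y : M, dist x y ≤ δ →
    dist (h x) (h y) < 1 := by
  have := CompactSpace.uniformContinuous_of_continuous h.continuous
  obtain ⟨δ, hδ, H⟩ := Metric.uniformContinuous_iff.1 this 1 one_pos
  exact ⟨δ / 2, half_pos hδ, fun x y hxy => H (by linarith)⟩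

theorem slb_sub_Xt {h : C(M, Circle)} {R : ℝ} {v : M × ℝ} (hv : v ∈ Slb h R) : v ∈ Xt h := hv.1

/-- **E**. -/
theorem eGoal (hA : AGoal) (hA' : ACatGoal) (hC : CGoal) (hD : DGoal) : EGoal := by
  intro M _ _ ρ hρ hU h hSC
  obtain ⟨δ, hδ, hmod⟩ := exists_mod h
  set r₀ := min (ρ / 2) (min δ (1 / 4)) with hr₀
  have hr₀pos : 0 < r₀ := lt_min (half_pos hρ) (lt_min hδ (by norm_num))
  have hr₀ρ : r₀ < ρ := (min_le_left _ _).trans_lt (by linarith)
  have hr₀4 : r₀ ≤ 1 / 4 := (min_le_right _ _).trans (min_le_right _ _)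
  have hmod' : ∀ x y : M, dist x y ≤ r₀ → dist (h x) (h y) < 1 := fun x y hxy =>
    hmod x y (hxy.trans ((min_le_right _ _).trans (min_le_left _ _)))
  refine ⟨r₀, hr₀pos, fun b hb R t ht => ?_⟩
  obtain ⟨m, hm1, hne⟩ := hD M ρ hρ hU h hSC R
  have hm0 : (0 : ℝ) ≤ m := Nat.cast_nonneg _
  obtain ⟨D₂, hD₂, hjoin⟩ := hC M ρ hρ hU h hSC R (m + r₀) (by positivity)
  refine ⟨D₂ + t, by linarith, fun a ha => ?_⟩
  have hch : ∀ v : M × ℝ, ∃ c : ℝ →ᵇ M, v ∈ Slb h R → c ∈ Fb h v a m := by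
    intro v
    by_cases hv : v ∈ Slb h R
    · obtain ⟨c, hc⟩ := hne v hv a ha
      exact ⟨c, fun _ => hc⟩
    · exact ⟨BoundedContinuousFunction.const ℝ v.1, fun h => absurd h hv⟩
  choose c hc using hch
  -- the standard path
  have hstd : ∀ v ∈ Slb h R, ∀ v' ∈ Slb h R, dist v v' ≤ r₀ →
      cat m (c v') (qT r₀ v'.1 v.1) ∈ Fb h v a (m + r₀) := by
    intro v hv v' hv' hd
    exact cat_Fb hA' hv.1 hv'.1 hm0 hr₀pos.le (hc v' hv')
      (qT_Fb hA hU hr₀pos hr₀ρ hr₀4 hmod' hv.1 hv'.1 hd)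
  have hd1 : ∀ v v' : M × ℝ, dist v v' ≤ r₀ → dist v.1 v'.1 ≤ r₀ := fun v v' hd =>
    (le_max_left _ _).trans ((Prod.dist_eq (x := v) (y := v')).symm.le.trans hd)
  have hself : ∀ v : M × ℝ, dist v v ≤ r₀ := fun v => by rw [dist_self]; exact hr₀pos.le
  refine ⟨fun v w => Tp r₀ m (c v) v.1 w, fun v hv => ?_, fun k _ d z hz => ⟨?_, ?_⟩⟩
  · -- the map
    have hmap := isMap_Tp (b := b.1) (t := t) hU hr₀pos hr₀ρ hm0 ht (Fb_sub_P (hc v hv))
    have hsub : XS h b [v] r₀ t ⊆ PFD b.1 (Metric.closedBall v.1 r₀) t := by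
      intro w hw
      have h1 := hw.2 v (List.mem_singleton.2 rfl)
      exact ⟨hw.1, hd1 _ _ h1⟩
    refine ⟨fun w hw => ?_, fun i => i.elim, fun ε hε => ?_⟩
    · have h1 := hw.2 v (List.mem_singleton.2 rfl)
      have hl : lab h b w ∈ Xt h := lab_mem hA hb ht hw.1
      have h2 : dist (w 0) v.1 ≤ r₀ := hd1 _ _ h1
      have h3 : qT r₀ v.1 (w 0) ∈ Fb h (lab h b w) v r₀ :=
        qT_Fb hA hU hr₀pos hr₀ρ hr₀4 hmod' hl hv.1 h1
      have h4 : cat r₀ (qT r₀ v.1 (w 0)) w ∈ Fb h b v (r₀ + t) :=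
        cat_Fb hA' hb hl hr₀pos.le ht h3 ⟨hw.1, rfl⟩
      show cat m (c v) (lcut (sT r₀ v.1) r₀ w) ∈ Fb h b a (D₂ + t)
      rw [lcut_eq hU hr₀pos hr₀ρ ht hw.1 h2]
      exact Fb_mono (by linarith) (cat_Fb hA' hb hv.1 hm0 (by linarith) (hc v hv) h4)
    · obtain ⟨δ', hδ', H⟩ := hmap.uc ε hε
      exact ⟨δ', hδ', fun x hx y hy hxy => H x (hsub hx) y (hsub hy) hxy⟩
  · -- independence
    intro v hv v' hv' hd
    obtain ⟨ε, hε, hz⟩ := hz
    have g := hstd v hv v hv (hself v)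
    have g' := hstd v hv v' hv' hd
    have hj := hjoin v hv a ha _ g _ g'
    have H := Hm_slideZ (C := t) hA' hb hv.1 ht hε (by positivity) (by positivity) hD₂ hD₂ g g' hj
      hz
    refine (exC_of_Hm (half_pos hε) H).congr fun l hl => ?_
    congr 2
    · exact List.map_congr_left fun w hw => Tp_eq hU hr₀pos hr₀ρ hm0 ht (hd1 _ _ hd)
        (Fb_sub_P (hc v' hv')) (Fb_sub_P (hl w hw))
    · exact List.map_congr_left fun w hw => Tp_eq hU hr₀pos hr₀ρ hm0 ht (hd1 _ _ (hself v))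
        (Fb_sub_P (hc v hv)) (Fb_sub_P (hl w hw))
  · -- the base point
    obtain ⟨ε, hε, hz⟩ := hz
    have g := hstd a ha a ha (hself a)
    have h0P : BoundedContinuousFunction.const ℝ a.1 ∈ P a.1 a.1 0 :=
      ⟨fun u v => by simp, fun _ _ => rfl, fun _ _ => rfl⟩
    have h0 : BoundedContinuousFunction.const ℝ a.1 ∈ Fb h a a 0 := by
      refine ⟨P_subset_PF h0P, ?_⟩
      rw [(hA M h a ha.1 0 le_rfl).2.1 _ (P_subset_PF h0P) (fun _ => a.2)
        ⟨continuous_const, fun u => ha.1, 0, fun _ _ => rfl⟩]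
      rfl
    have hj := hjoin a ha a ha _ (Fb_mono (by positivity) h0) _ g
    have H := Hm_slideZ (C := t) hA' hb ha.1 ht hε le_rfl (by positivity)
      (by linarith) hD₂ h0 g hj hz
    refine (exC_of_Hm (half_pos hε) H).congr fun l hl => ?_
    congr 2
    · exact List.map_congr_left fun w hw => Tp_eq hU hr₀pos hr₀ρ hm0 ht (hd1 _ _ (hself a))
        (Fb_sub_P (hc a ha)) (Fb_sub_P (hl w hw))
    · conv_lhs => rw [← List.map_id l]
      refine List.map_congr_left fun w hw => ?_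
      have hw' := Fb_sub_P (hl w hw)
      have e : BoundedContinuousFunction.const ℝ a.1 0 = w 0 := by
        rw [eq_left hw' le_rfl]
        rfl
      ext u
      rw [cat_apply h0P.1 hw'.1 e]
      rcases le_total u 0 with h1 | h1
      · rw [catf_left h1]
        exact eq_left hw' h1
      · rw [catf_right e h1, sub_zero]
        rfl

end Vale.Agent.P216.H774E8
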